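import Vale.Agent.P116.Slow.Tree

/-!
# P116, full Koebe, block [H]: set functions which are monotone on nodes, and their end values

`o : Set ℂ → ℝ` is any nonnegative function of sets which is monotone on the nodes inside `w`
(example: the oscillation of a function over the node minus `K`).
The end value at `x` is the limit of `o` along the branch of `x`.
-/

open Set Filter Topology Metric

namespace Vale.Agent.P116.KF.H235

open H906

variable {K w : Set ℂ} {o : Set ℂ → ℝ}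

/-- end value -/
noncomputable def ev (K : Set ℂ) (o : Set ℂ → ℝ) (x : ℂ) : ℝ := ⨅ n : ℕ, o (nd K n x)

/-- the function is nonnegative, and monotone on the nodes of level at least `n₀` of the points of
`K` in `w` -/
structure NMon (K w : Set ℂ) (n₀ : ℕ) (o : Set ℂ → ℝ) : Prop where
  nn : ∀ A, 0 ≤ o A
  mono : ∀ x ∈ K ∩ w, ∀ m n, n₀ ≤ m → m ≤ n → o (nd K n x) ≤ o (nd K m x)

/-- end value: infimum over the levels at least `n₀` -/
noncomputable def en (K : Set ℂ) (n₀ : ℕ) (o : Set ℂ → ℝ) (x : ℂ) : ℝ := ⨅ n : ℕ, o (nd K (n₀ + n) x)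

lemma bddB (h : ∀ A, 0 ≤ o A) (f : ℕ → Set ℂ) : BddBelow (range fun n => o (f n)) :=
  ⟨0, by rintro _ ⟨n, rfl⟩; exact h _⟩

lemma NMon.en_nonneg {n₀ : ℕ} (h : NMon K w n₀ o) (x : ℂ) : 0 ≤ en K n₀ o x :=
  le_ciInf fun _ => h.nn _

lemma NMon.en_le {n₀ : ℕ} (h : NMon K w n₀ o) (x : ℂ) {n : ℕ} (hn : n₀ ≤ n) :
    en K n₀ o x ≤ o (nd K n x) := by
  obtain ⟨k, rfl⟩ := Nat.exists_eq_add_of_le hn
  exact ciInf_le (bddB h.nn fun n => nd K (n₀ + n) x) k

/-- the values along a branch tend to the end value -/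
lemma NMon.tendsto {n₀ : ℕ} (h : NMon K w n₀ o) {x : ℂ} (hx : x ∈ K ∩ w) :
    Tendsto (fun n => o (nd K n x)) atTop (𝓝 (en K n₀ o x)) := by
  have h1 : Tendsto (fun n => o (nd K (n₀ + n) x)) atTop (𝓝 (en K n₀ o x)) :=
    tendsto_atTop_ciInf (fun a b hab => h.mono x hx _ _ (Nat.le_add_right _ _) (by omega))
      (bddB h.nn fun n => nd K (n₀ + n) x)
  have h2 : Tendsto (fun n => o (nd K (n + n₀) x)) atTop (𝓝 (en K n₀ o x)) := by
    simpa [add_comm] using h1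
  exact (tendsto_add_atTop_iff_nat n₀).1 h2

lemma NMon.exists_lt {n₀ : ℕ} (h : NMon K w n₀ o) {x : ℂ} (hx : x ∈ K ∩ w) {ε : ℝ} (hε : 0 < ε) :
    ∃ m₀ ≥ n₀, ∀ m ≥ m₀, o (nd K m x) < en K n₀ o x + ε := by
  obtain ⟨m, hm⟩ := ((h.tendsto hx).eventually (gt_mem_nhds (by linarith :
    en K n₀ o x < en K n₀ o x + ε))).exists_forall_of_atTop
  exact ⟨max m n₀, le_max_right _ _, fun k hk => hm k ((le_max_left _ _).trans hk)⟩

/-- the squares -/
lemma NMon.exists_sq_lt {n₀ : ℕ} (h : NMon K w n₀ o) {x : ℂ} (hx : x ∈ K ∩ w) {ε : ℝ} (hε : 0 < ε) :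
    ∃ m₀ ≥ n₀, ∀ m ≥ m₀, o (nd K m x) ^ 2 < en K n₀ o x ^ 2 + ε := by
  obtain ⟨m, hm⟩ := (((h.tendsto hx).pow 2).eventually (gt_mem_nhds (by linarith :
    en K n₀ o x ^ 2 < en K n₀ o x ^ 2 + ε))).exists_forall_of_atTop
  exact ⟨max m n₀, le_max_right _ _, fun k hk => hm k ((le_max_left _ _).trans hk)⟩

/-- nodes determine the end value -/
lemma en_congr {n₀ : ℕ} {x y : ℂ} (h : ∀ n, n₀ ≤ n → y ∈ nd K n x) :
    en K n₀ o y = en K n₀ o x := by
  unfold en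
  congr 1
  funext n
  rw [nd_eq (h _ (Nat.le_add_right _ _))]

/-- points of the same component of `K` have the same end value -/
lemma en_comp {n₀ : ℕ} {x y : ℂ} (h : y ∈ connectedComponentIn K x) :
    en K n₀ o y = en K n₀ o x :=
  en_congr fun n _ => connectedComponentIn_mono x (subset_lev n) h

/-- the end value is upper semicontinuous -/
lemma NMon.usc {n₀ : ℕ} (h : NMon K w n₀ o) {x : ℂ} (hx : x ∈ K ∩ w) {ε : ℝ} (hε : 0 < ε) :
    ∃ m₀ ≥ n₀, ∀ m ≥ m₀, ∀ y ∈ nd K m x, en K n₀ o y < en K n₀ o x + ε := by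
  obtain ⟨m₀, hm₀, h1⟩ := h.exists_lt hx hε
  refine ⟨m₀, hm₀, fun m hm y hy => ?_⟩
  have h2 : en K n₀ o y ≤ o (nd K m y) := h.en_le y (hm₀.trans hm)
  rw [nd_eq hy] at h2
  exact h2.trans_lt (h1 m hm)

/-- finitely many nodes of points of `A` cover the compact set `A` -/
lemma exists_cover {A : Set ℂ} (hA : IsCompact A) (hAK : A ⊆ K) (ν : ℂ → ℕ) :
    ∃ t : Finset ℂ, (∀ x ∈ t, x ∈ A) ∧ ∀ y ∈ A, ∃ x ∈ t, y ∈ nd K (ν x) x := by
  obtain ⟨t, ht, hc⟩ := hA.elim_nhds_subcover (fun x => nd K (ν x) x) (fun x hx =>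
    mem_of_superset (closedBall_mem_nhds x (lr_pos (ν x)))
      (closedBall_subset_nd (hAK hx) (mem_nd (hAK hx) _)))
  refine ⟨t, ht, fun y hy => ?_⟩
  obtain ⟨x, hx, hxy⟩ := mem_iUnion₂.1 (hc hy)
  exact ⟨x, hx, hxy⟩

/-- **uniform smallness**: if all end values on the compact set `A ⊆ K ∩ w` are below `ε`, then
all nodes of high level of the points of `A` have value below `ε` -/
lemma NMon.uniform {n₀ : ℕ} (h : NMon K w n₀ o) {A : Set ℂ} (hA : IsCompact A) (hAK : A ⊆ K ∩ w)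
    {ε : ℝ} (hlt : ∀ x ∈ A, en K n₀ o x < ε) :
    ∃ N ≥ n₀, ∀ n ≥ N, ∀ x ∈ A, o (nd K n x) < ε := by
  have h1 : ∀ x, ∃ m, x ∈ A → n₀ ≤ m ∧ o (nd K m x) < ε := by
    intro x
    by_cases hx : x ∈ A
    · obtain ⟨m₀, hm₀, hm⟩ := h.exists_lt (hAK hx) (sub_pos.2 (hlt x hx))
      exact ⟨m₀, fun _ => ⟨hm₀, by linarith [hm m₀ le_rfl]⟩⟩
    · exact ⟨0, fun h => absurd h hx⟩
  choose ν hν using h1
  obtain ⟨t, htA, hc⟩ := exists_cover hA (hAK.trans inter_subset_left) ν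
  refine ⟨max n₀ (t.sup ν), le_max_left _ _, fun n hn x hx => ?_⟩
  obtain ⟨z, hz, hxz⟩ := hc x hx
  have h2 := hν z (htA z hz)
  have h3 : ν z ≤ n := (Finset.le_sup hz).trans ((le_max_right _ _).trans hn)
  have h4 : o (nd K n x) ≤ o (nd K (ν z) x) := h.mono x (hAK hx) _ _ h2.1 h3
  rw [nd_eq hxz] at h4
  exact h4.trans_lt h2.2

/-- the points of `K ∩ w` which are off finitely many nodes form a compact set -/
lemma isCompact_off (hK : IsCompact K) (hw : IsClosed w) {F : Set ℂ} (hF : F.Finite) (m : ℕ) :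
    IsCompact (K ∩ w ∩ {x | ∀ c ∈ F, x ∉ nd K m c}) := by
  have h1 : IsClosed (K ∩ ⋃ c ∈ F, nd K m c) := by
    rw [inter_iUnion₂]
    exact hF.isClosed_biUnion fun c _ => hK.isClosed.inter (isCompact_nd hK m c).isClosed
  have h2 : K ∩ w ∩ {x | ∀ c ∈ F, x ∉ nd K m c} = (K ∩ w) ∩ ⋂ c ∈ F, {x | x ∉ nd K m c} := by
    ext x
    simp
  -- nodes are relatively open in `K`
  have h3 : ∀ c, ∃ U : Set ℂ, IsOpen U ∧ K ∩ U = K ∩ nd K m c := by
    intro c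
    refine ⟨interior (nd K m c), isOpen_interior, ?_⟩
    apply Subset.antisymm (inter_subset_inter_right _ interior_subset)
    rintro x ⟨hx, hxc⟩
    refine ⟨hx, ?_⟩
    by_contra hn
    exact disjoint_left.1 (frontier_nd_disjoint m c) ⟨subset_closure hxc, hn⟩ hx
  choose U hU hUK using h3
  have h4 : K ∩ w ∩ {x | ∀ c ∈ F, x ∉ nd K m c} = K ∩ w ∩ (⋃ c ∈ F, U c)ᶜ := by
    ext x
    simp only [mem_inter_iff, mem_setOf_eq, mem_compl_iff, mem_iUnion, not_exists]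
    constructor
    · rintro ⟨⟨hx, hxw⟩, h⟩
      refine ⟨⟨hx, hxw⟩, fun c hc hxU => h c hc ?_⟩
      have : x ∈ K ∩ nd K m c := hUK c ▸ ⟨hx, hxU⟩
      exact this.2
    · rintro ⟨⟨hx, hxw⟩, h⟩
      refine ⟨⟨hx, hxw⟩, fun c hc hxU => h c hc ?_⟩
      have : x ∈ K ∩ U c := (hUK c).symm ▸ ⟨hx, hxU⟩
      exact this.2
  rw [h4]
  exact (hK.inter_right hw).inter_right (isOpen_biUnion fun c _ => hU c).isClosed_compl

/-- **uniform smallness off finitely many branches** -/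
lemma NMon.uniform_off (hK : IsCompact K) (hw : IsClosed w) {n₀ : ℕ} (h : NMon K w n₀ o)
    {F : Set ℂ} (hF : F.Finite) {ε : ℝ}
    (hlt : ∀ x ∈ K ∩ w, (∀ c ∈ F, x ∉ connectedComponentIn K c) → en K n₀ o x < ε) (m : ℕ) :
    ∃ N ≥ n₀, ∀ n ≥ N, ∀ x ∈ K ∩ w, (∀ c ∈ F, x ∉ nd K m c) → o (nd K n x) < ε := by
  obtain ⟨N, hN, h1⟩ := h.uniform (isCompact_off hK hw hF m) inter_subset_left (ε := ε)
    (fun x hx => hlt x hx.1 fun c hc hxc => hx.2 c hc (connectedComponentIn_mono c (subset_lev m) hxc))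
  exact ⟨N, hN, fun n hn x hx hoff => h1 n hn x ⟨hx, hoff⟩⟩

end Vale.Agent.P116.KF.H235
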